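import Vale.Agent.P261.H468.Spec
import Vale.Agent.P251.S.LimComplex

/-!
# P261, leaf (E): the value of a form of the zero line at the universal point

A cocycle `z` of degree `0` and weight `w` over `NN p h (j+1)` is mapped to the primitive element
`e(t) c_0^(-w)` of `T_j`, `t = ι z`, which is fixed by `AutF H`; hence
`φ_γ(e t) = lead(g_γ)^w · e t` in `E_j`.
-/

open Vale.Agent.P251.F Vale.Agent.P251 Vale.Agent.P217

namespace Vale.Agent.P261

/-- The value of an element of degree `0` at the universal point of `E_j`. -/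
noncomputable def valE {p h : ℕ} [Fact p.Prime] {k : Type} [Field k] (D : LTD p h k) (j : ℕ) :
    Cob (NN p h (j + 1)) 0 →+* D.EJ j :=
  MvPolynomial.eval₂Hom (((D.coPt j).e).comp (D.tower.ι j)) fun im => im.1.elim0

namespace H541

variable {p h : ℕ} [Fact p.Prime] {k : Type} [Field k] (D : LTD p h k) (j : ℕ)

theorem valE_C (a : NN p h (j + 1)) :
    valE D j (MvPolynomial.C a) = (D.coPt j).e (D.tower.ι j a) := by
  rw [valE, MvPolynomial.coe_eval₂Hom, MvPolynomial.eval₂_C]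
  rfl

theorem exists_C {N : Type} [CommRing N] (z : Cob N 0) : ∃ a : N, z = MvPolynomial.C a :=
  ⟨_, MvPolynomial.eq_C_of_isEmpty z⟩

/-- The element of `T_j` is primitive. -/
theorem prim (w : ℤ) (a : NN p h (j + 1)) (hz : Cob.IsWt w (MvPolynomial.C a : Cob _ 0))
    (hd : Cob.d 0 (MvPolynomial.C a : Cob (NN p h (j + 1)) 0) = 0) :
    (D.tower.ι j a : D.TT j) = (D.coPt j).emb (-w) ((D.coPt j).e (D.tower.ι j a)) := by
  have hm : Cob.mapRing (D.tower.ι j) 0 (MvPolynomial.C a : Cob (NN p h (j + 1)) 0) =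
      MvPolynomial.C (D.tower.ι j a) := by
    rw [Cob.mapRing, MvPolynomial.map_C]
  have h1 : Cob.IsWt w (MvPolynomial.C (D.tower.ι j a) : Cob (D.tower.T j) 0) := by
    rw [← hm]
    exact Cob.IsWt.mapRing (D.tower.ι_law j) hz
  have h2 : Cob.d 0 (MvPolynomial.C (D.tower.ι j a) : Cob (D.tower.T j) 0) = 0 := by
    rw [← hm, ← Cob.mapRing_d (D.tower.ι_law j), hd, map_zero]
  exact ((D.coPt j).prim_iff (D.isCo j) (D.tower.ι j a) w).1 ⟨h1, h2⟩

theorem ι_injective : Function.Injective (D.tower.ι j) := by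
  classical
  rw [injective_iff_map_eq_zero]
  intro a ha
  have h := D.tower.inv j
  have h1 := h.uniq (Pi.single D.tower.i₀ a) (by
    rw [Finset.sum_eq_single D.tower.i₀]
    · rw [Pi.single_eq_same, ha, mul_zero]
    · intro i _ hi
      rw [Pi.single_eq_of_ne hi, map_zero, mul_zero]
    · intro h2
      exact absurd (Finset.mem_univ _) h2)
  have h2 := congrFun h1 D.tower.i₀
  rwa [Pi.single_eq_same] at h2

end H541

theorem valE_form {p h : ℕ} [Fact p.Prime] {k : Type} [Field k] (D : LTD p h k) (j : ℕ) (w : ℤ)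
    (z : Cob (NN p h (j + 1)) 0) (hz : Cob.IsWt w z) (hd : Cob.d 0 z = 0) (γ : D.GG) :
    (D.coPt j).phi (D.sm j γ) (valE D j z) =
      ((((D.coPt j).ser (D.sm j γ)).lead ^ w : (D.EJ j)ˣ) : D.EJ j) * valE D j z := by
  obtain ⟨a, rfl⟩ := H541.exists_C z
  have h1 := H541.prim D j w a hz hd
  rw [H541.valE_C]
  generalize hy : (D.coPt j).e (D.tower.ι j a) = y at h1 ⊢
  have hfix : D.sm j γ (D.tower.ι j a) = D.tower.ι j a := (D.tower.inv j).fix γ a
  rw [h1] at hfix
  have h2 := CoPt.Comm.map_emb (D.coPt j) (D.comm_sm j γ) (-w) y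
  rw [hfix] at h2
  have h3 := (D.coPt j).emb_injective (-w) h2
  conv_rhs => rw [h3]
  rw [← mul_assoc, ← Units.val_mul, ← zpow_add, add_neg_cancel, zpow_zero, Units.val_one, one_mul]

theorem valE_inj {p h : ℕ} [Fact p.Prime] {k : Type} [Field k] (D : LTD p h k) (j : ℕ) (w : ℤ)
    (z : Cob (NN p h (j + 1)) 0) (hz : Cob.IsWt w z) (hd : Cob.d 0 z = 0)
    (h0 : valE D j z = 0) : z = 0 := by
  obtain ⟨a, rfl⟩ := H541.exists_C z
  have h1 := H541.prim D j w a hz hd
  rw [H541.valE_C] at h0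
  rw [h0, map_zero] at h1
  have h2 : a = 0 := H541.ι_injective D j (by rw [map_zero]; exact h1)
  rw [h2, map_zero]

theorem red_valE {p h : ℕ} [Fact p.Prime] {k : Type} [Field k] (D : LTD p h k) (j : ℕ)
    (z : Cob (NN p h (j + 2)) 0) :
    EE.red k (h - 1) (Nat.le_succ j) (valE D (j + 1) z) =
      valE D j (Cob.mapRing (NN.red p h (Nat.le_succ (j + 1))) 0 z) := by
  obtain ⟨a, rfl⟩ := H541.exists_C z
  rw [Cob.mapRing, MvPolynomial.map_C, H541.valE_C, H541.valE_C]
  have h1 : D.tower.ι j (NN.red p h (Nat.le_succ (j + 1)) a) =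
      D.redT (Nat.le_succ j) (D.tower.ι (j + 1) a) :=
    (RingHom.congr_fun (D.tower.ι_red (Nat.le_succ j)) a).symm
  have h2 := (D.coPt j).e_nat (D.coPt (j + 1)) (D.redT (Nat.le_succ j))
    (EE.red k (h - 1) (Nat.le_succ j) : D.EJ (j + 1) →+* D.EJ j)
    (D.redT_comp_inc (Nat.le_succ j)) (D.map_redT_ser (Nat.le_succ j))
  rw [h1]
  exact (RingHom.congr_fun h2 (D.tower.ι (j + 1) a)).symm

end Vale.Agent.P261
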